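import Vale.Agent.Lib.P150.GapUpper

open MeasureTheory ProbabilityTheory Filter Topology Vale.Agent.P150

/-- For every `0 < β < 1/2`, with probability tending to one over the disorder, the heat-bath
dynamics of the zero-field SK model has spectral gap between a positive constant and `1`, and
worst-start total variation mixing time at most `C log n`. -/
theorem Vale.Agent.Results.P150.FastMixing.result (β : ℝ) (hβ : 0 < β) (hβ2 : β < 1 / 2) :
    ∃ c C : ℝ, 0 < c ∧ 0 < C ∧
      Tendsto (fun n : ℕ => disorder n {g | ¬ (c ≤ spectralGap β g ∧ spectralGap β g ≤ 1 ∧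
        (∀ t : ℝ, C * Real.log n ≤ t → ∀ x, tvDist β g t x ≤ 1 / 4) ∧
        mixingTime β g ≤ C * Real.log n)}) atTop (𝓝 0) := by
  obtain ⟨c, C, hc, hC, h⟩ := main_upper β hβ hβ2
  refine ⟨c, C, hc, hC, ?_⟩
  refine tendsto_of_tendsto_of_tendsto_of_le_of_le' tendsto_const_nhds h
    (Eventually.of_forall fun n => zero_le) ?_
  filter_upwards [eventually_ge_atTop 1] with n hn
  refine measure_mono fun g hg hcon => hg ?_
  exact ⟨hcon.1, spectralGap_le_one β g hn, hcon.2.1, hcon.2.2⟩
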