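import Vale.Agent.Lib.P150.D3.Bridge

open MeasureTheory ProbabilityTheory Filter Topology Vale.Agent.P150.D3

/-- Heat-bath dynamics of the zero-field Sherrington-Kirkpatrick model with i.i.d. standard Gaussian
disorder `g ω i j` (`i < j`) on an arbitrary probability space.
(1) `0 < β < 1/2`: with probability tending to one `t_mix` is of order `log n`, `1/gap` is of order
one, and the worst-start distance to equilibrium is at most `1/4` at all times `t ≥ C log n`.
(2) every `β > 0`: `t_mix ≥ c log n` and `1/gap ≥ 1` with probability tending to one.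
(3) every `β > 1`: `t_mix` and `1/gap` are at least of order `n` in probability.
(4) every `β > 1`: `t_mix > C log n` with probability tending to one, for every `C`. -/
theorem Vale.Agent.Results.P150.GlauberOrders.result
    {Ω : Type} [MeasurableSpace Ω] (Pr : Measure Ω) [IsProbabilityMeasure Pr]
    (g : Ω → ℕ → ℕ → ℝ)
    (hlaw : ∀ i j, i < j → HasLaw (fun ω => g ω i j) (gaussianReal 0 1) Pr)
    (hind : iIndepFun (fun (p : {p : ℕ × ℕ // p.1 < p.2}) (ω : Ω) => g ω p.1.1 p.1.2) Pr) :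
    (∀ β : ℝ, 0 < β → β < 1 / 2 → ∃ c C : ℝ, 0 < c ∧ 0 < C ∧
      Tendsto (fun n : ℕ => Pr {ω | ¬ (
        (c * Real.log n ≤ tmix n β (g ω) ∧ tmix n β (g ω) ≤ C * Real.log n) ∧
        (1 ≤ 1 / gap n β (g ω) ∧ 1 / gap n β (g ω) ≤ C) ∧
        ∀ t : ℝ, C * Real.log n ≤ t → Mixed n β (g ω) t)}) atTop (𝓝 0)) ∧
    (∀ β : ℝ, 0 < β → ∃ c : ℝ, 0 < c ∧
      Tendsto (fun n : ℕ => Pr {ω | ¬ (
        c * Real.log n ≤ tmix n β (g ω) ∧ 1 ≤ 1 / gap n β (g ω))}) atTop (𝓝 0)) ∧
    (∀ β : ℝ, 1 < β → ∀ η : ℝ, 0 < η → ∃ c : ℝ, 0 < c ∧ ∀ᶠ n : ℕ in atTop,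
      Pr {ω | ¬ (c * n ≤ tmix n β (g ω) ∧ c * n ≤ 1 / gap n β (g ω))} ≤ ENNReal.ofReal η) ∧
    (∀ β : ℝ, 1 < β → ∀ C : ℝ,
      Tendsto (fun n : ℕ => Pr {ω | tmix n β (g ω) ≤ C * Real.log n}) atTop (𝓝 0)) := by
  have hle : ∀ (n : ℕ) (S : Set (Vale.Agent.P150.Pair n → ℝ)),
      Pr {ω | res n (g ω) ∈ S} ≤ Vale.Agent.P150.disorder n S := fun n S =>
    prob_le (g := fun i j ω => g ω i j) hlaw hind n S
  have hone : ∀ (n : ℕ), 1 ≤ n → ∀ (β : ℝ) (a : ℕ → ℕ → ℝ), 1 ≤ 1 / gap n β a := by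
    intro n hn β a
    rw [le_div_iff₀ (gap_pos hn β a), one_mul]
    exact gap_le_one hn β a
  have hslow : ∀ β : ℝ, 1 < β → ∀ η : ℝ, 0 < η → ∃ c : ℝ, 0 < c ∧ ∀ᶠ n : ℕ in atTop,
      Pr {ω | ¬ (c * n ≤ tmix n β (g ω) ∧ c * n ≤ 1 / gap n β (g ω))} ≤ ENNReal.ofReal η := by
    intro β hβ η hη
    obtain ⟨c, hc, h⟩ := Vale.Agent.P150.Slow.main_slow β hβ η hη
    refine ⟨c, hc, ?_⟩
    filter_upwards [h, eventually_ge_atTop 1] with n hn hn1
    refine le_trans (le_trans (measure_mono ?_) (hle n _)) hn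
    intro ω hω hcon
    refine hω ⟨?_, ?_⟩
    · rw [tmix_eq]
      exact hcon.1
    · have h1 := gap_pos hn1 β (g ω)
      have h2 := hcon.2
      rw [← gap_eq hn1] at h2
      have hn0 : (0 : ℝ) < n := by exact_mod_cast hn1
      rw [le_div_iff₀ h1, mul_comm]
      rwa [le_div_iff₀ (by positivity)] at h2
  refine ⟨?_, ?_, hslow, ?_⟩
  · intro β hβ hβ2
    obtain ⟨c1, C1, hc1, hC1, h1⟩ := Vale.Agent.P150.main_upper β hβ hβ2
    obtain ⟨c2, C2, hc2, hC2, h2⟩ := Vale.Agent.P150.main_order β hβ hβ2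
    refine ⟨c2, max (max C1 C2) (1 / c2), hc2,
      lt_of_lt_of_le hC1 ((le_max_left _ _).trans (le_max_left _ _)), ?_⟩
    have ht := h1.add h2
    simp only [add_zero] at ht
    refine tendsto_of_tendsto_of_tendsto_of_le_of_le' tendsto_const_nhds ht
      (Eventually.of_forall fun n => zero_le) ?_
    filter_upwards [eventually_ge_atTop 1] with n hn
    refine le_trans (le_trans (measure_mono ?_) (measure_union_le _ _))
      (add_le_add (hle n _) (hle n _))
    intro ω hω
    by_contra hcon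
    simp only [Set.mem_union, not_or, Set.mem_ofPred_eq, not_not] at hcon
    obtain ⟨⟨_, d2, _⟩, d4, d5, d6, d7⟩ := hcon
    have hn1 : (1:ℝ) ≤ n := by exact_mod_cast hn
    have hlog := Real.log_nonneg hn1
    refine hω ⟨⟨?_, ?_⟩, ⟨hone n hn β (g ω), ?_⟩, fun t ht => ?_⟩
    · rw [tmix_eq]
      exact d4
    · rw [tmix_eq]
      exact d5.trans (mul_le_mul_of_nonneg_right
        ((le_max_right C1 C2).trans (le_max_left _ _)) hlog)
    · rw [gap_eq hn]
      exact (one_div_le_one_div_of_le hc2 d6).trans (le_max_right _ _)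
    · rw [Mixed_iff]
      intro y
      exact d2 t (le_trans (mul_le_mul_of_nonneg_right
        ((le_max_left C1 C2).trans (le_max_left _ _)) hlog) ht) y
  · intro β hβ
    obtain ⟨c, hc, h⟩ := Vale.Agent.P150.main_lower β hβ
    refine ⟨c, hc, ?_⟩
    refine tendsto_of_tendsto_of_tendsto_of_le_of_le' tendsto_const_nhds h
      (Eventually.of_forall fun n => zero_le) ?_
    filter_upwards [eventually_ge_atTop 1] with n hn
    refine le_trans (measure_mono ?_) (hle n _)
    intro ω hω hcon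
    refine hω ⟨?_, hone n hn β (g ω)⟩
    rw [tmix_eq]
    exact hcon.1
  · intro β hβ C
    rw [ENNReal.tendsto_nhds_zero]
    intro ε hε
    by_cases hεt : ε = ⊤
    · subst hεt
      exact Eventually.of_forall fun n => le_top
    have hη0 : 0 < ε.toReal := ENNReal.toReal_pos hε.ne' hεt
    obtain ⟨c, hc, h⟩ := hslow β hβ ε.toReal hη0
    have hlo : Tendsto (fun n : ℕ => Real.log n / n) atTop (𝓝 0) := by
      have h1 := Real.isLittleO_log_id_atTop.tendsto_div_nhds_zero
      exact h1.comp tendsto_natCast_atTop_atTop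
    have hev : ∀ᶠ n : ℕ in atTop, C * (Real.log n / n) < c := by
      have h1 := hlo.const_mul C
      rw [mul_zero] at h1
      exact h1.eventually (gt_mem_nhds hc)
    filter_upwards [h, hev, eventually_ge_atTop 1] with n hn hn2 hn1
    have hn0 : (0 : ℝ) < n := by exact_mod_cast hn1
    refine le_trans (measure_mono ?_) (hn.trans (le_of_eq (ENNReal.ofReal_toReal hεt)))
    intro ω hω hcon
    have h1 : c * n ≤ C * Real.log n := hcon.1.trans hω
    have h2 : C * Real.log n < c * n := by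
      have h3 := mul_lt_mul_of_pos_right hn2 hn0
      have h4 : C * (Real.log n / n) * n = C * Real.log n := by
        field_simp
      rwa [h4] at h3
    exact absurd h1 (not_le.2 h2)
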