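import Vale.Agent.Lib.P150.LowerFinal
import Vale.Agent.Lib.P150.Slow.Final

open MeasureTheory ProbabilityTheory Filter Topology Vale.Agent.P150

/-- Heat-bath dynamics for the zero-field SK model.
(1) For every `0 < β < 1/2`, with probability tending to one, `c log n ≤ t_mix ≤ C log n`,
`c ≤ gap ≤ 1`, and the worst-start total variation distance is at most `1/4` from time `C log n`
on. (2) For every `β > 0`, with probability tending to one, `t_mix ≥ c log n`.
(3) For every `β > 1` and every sequence `a n → 0`, with probability tending to one,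
`t_mix ≥ a n * n` and `a n * n * gap ≤ 1`. -/
theorem Vale.Agent.Results.P150.PhaseTransition.result :
    (∀ β : ℝ, 0 < β → β < 1 / 2 → ∃ c C : ℝ, 0 < c ∧ 0 < C ∧
      Tendsto (fun n : ℕ => disorder n {g | ¬ (
        c * Real.log n ≤ mixingTime β g ∧ mixingTime β g ≤ C * Real.log n ∧
        c ≤ spectralGap β g ∧ spectralGap β g ≤ 1 ∧
        (∀ t : ℝ, C * Real.log n ≤ t → ∀ x, tvDist β g t x ≤ 1 / 4))}) atTop (𝓝 0)) ∧
    (∀ β : ℝ, 0 < β → ∃ c : ℝ, 0 < c ∧
      Tendsto (fun n : ℕ => disorder n {g | ¬ (c * Real.log n ≤ mixingTime β g)})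
        atTop (𝓝 0)) ∧
    (∀ β : ℝ, 1 < β → ∀ a : ℕ → ℝ, Tendsto a atTop (𝓝 0) →
      Tendsto (fun n : ℕ => disorder n {g | ¬ (
        a n * n ≤ mixingTime β g ∧ a n * n * spectralGap β g ≤ 1)}) atTop (𝓝 0)) := by
  refine ⟨?_, ?_, ?_⟩
  · intro β hβ hβ2
    obtain ⟨c1, C1, hc1, hC1, h1⟩ := main_upper β hβ hβ2
    obtain ⟨c2, C2, hc2, hC2, h2⟩ := main_order β hβ hβ2
    refine ⟨c2, max C1 C2, hc2, lt_of_lt_of_le hC1 (le_max_left _ _), ?_⟩
    have ht := h1.add h2
    simp only [add_zero] at ht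
    refine tendsto_of_tendsto_of_tendsto_of_le_of_le' tendsto_const_nhds ht
      (Eventually.of_forall fun n => zero_le) ?_
    filter_upwards [eventually_ge_atTop 1] with n hn
    refine le_trans (measure_mono ?_) (measure_union_le _ _)
    intro g hg
    by_contra hcon
    simp only [Set.mem_union, not_or, Set.mem_ofPred_eq, not_not] at hcon
    obtain ⟨⟨_, d2, _⟩, d4, d5, d6, d7⟩ := hcon
    have hn1 : (1:ℝ) ≤ n := by exact_mod_cast hn
    have hlog := Real.log_nonneg hn1
    refine hg ⟨d4, d5.trans (mul_le_mul_of_nonneg_right (le_max_right C1 C2) hlog), d6, d7,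
      fun t ht x => d2 t (le_trans (mul_le_mul_of_nonneg_right (le_max_left C1 C2) hlog) ht) x⟩
  · intro β hβ
    obtain ⟨c, hc, h⟩ := main_lower β hβ
    refine ⟨c, hc, ?_⟩
    refine tendsto_of_tendsto_of_tendsto_of_le_of_le tendsto_const_nhds h
      (fun n => zero_le) fun n => ?_
    exact measure_mono fun g hg hcon => hg hcon.1
  · intro β hβ a ha
    rw [ENNReal.tendsto_nhds_zero]
    intro ε hε
    by_cases hεt : ε = ⊤
    · subst hεt
      exact Eventually.of_forall fun n => le_top
    obtain ⟨η, hη⟩ : ∃ η : ℝ, η = ε.toReal := ⟨_, rfl⟩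
    have hη0 : 0 < η := hη ▸ ENNReal.toReal_pos hε.ne' hεt
    obtain ⟨c, hc, h⟩ := Slow.main_slow β hβ η hη0
    filter_upwards [h, ha.eventually (gt_mem_nhds hc), eventually_ge_atTop 1] with n hn hac hn1
    have hn0 : (0:ℝ) < n := by exact_mod_cast hn1
    refine le_trans (measure_mono ?_) (hn.trans (le_of_eq ?_))
    · intro g hg hcon
      refine hg ⟨?_, ?_⟩
      · exact le_trans (mul_le_mul_of_nonneg_right hac.le hn0.le) hcon.1
      · rcases le_or_gt (a n * n) 0 with h0 | h0
        · have hgap : 0 ≤ spectralGap β g := Slow.spectralGap_nonneg' β g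
          exact le_trans (mul_nonpos_of_nonpos_of_nonneg h0 hgap) zero_le_one
        · calc a n * n * spectralGap β g ≤ a n * n * (1 / (c * n)) :=
              mul_le_mul_of_nonneg_left hcon.2 h0.le
            _ = a n / c := by field_simp
            _ ≤ 1 := by rw [div_le_one hc]; exact hac.le
    · rw [hη, ENNReal.ofReal_toReal hεt]
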